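import Vale.Agent.P181.H382.H640.RhoU
import Vale.Agent.P181.H382.H755.AllU
import Vale.Agent.P181.RV.H809.AllU
import Vale.Agent.P181.GN.H457.All
import Vale.Agent.P181.PLX.Main

set_option autoImplicit false

/-!
# P181, LSU: `RhoU` without hypotheses
-/

namespace Vale.Agent.P181.H382.H622

open Vale.Agent.P181

theorem rhoU : H112.RhoU :=
  H640.rhoU H755.rhoP_closed RV.H809.nearV GN.H457.uniAllc PLX.polyS

end Vale.Agent.P181.H382.H622
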